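import Vale.Agent.P095.Inf.Two
import Vale.Agent.P095.SI.Assembly

/-! P095, algebras without traces: two invariant almost isometries with almost orthogonal ranges. -/

open Filter Topology
open scoped ComplexOrder

namespace Vale.Agent.P095.Inf

variable {B : Type*} [CStarAlgebra B] [PartialOrder B] [StarOrderedRing B] {A : Submodule ℂ B}
  {d : B}

omit [PartialOrder B] [StarOrderedRing B] in
/-- Two weighted sums of translates are almost orthogonal. -/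
theorem norm_comb_cross_le {ι : Type*} {σ : ι → B ≃⋆ₐ[ℂ] B} {U : Finset ι} {w : ι → ℝ} {s t : B}
    {ε₀ : ℝ} (hw : ∀ C, |w C| ≤ 1)
    (hcross : ∀ C ∈ U, ∀ C' ∈ U, ‖star (σ C s) * σ C' t‖ ≤ ε₀) :
    ‖star (SI.comb σ U w s) * SI.comb σ U w t‖ ≤ U.card * (U.card * ε₀) := by
  have hexp : star (SI.comb σ U w s) * SI.comb σ U w t =
      ∑ C ∈ U, ∑ C' ∈ U, ((w C * w C' : ℝ) : ℂ) • (star (σ C s) * σ C' t) := by
    simp [SI.comb, star_sum, Finset.sum_mul_sum, smul_smul, mul_comm, -Complex.coe_smul]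
  rw [hexp]
  simp only [← nsmul_eq_mul]
  refine (norm_sum_le _ _).trans (Finset.sum_le_card_nsmul _ _ _ fun C hC =>
    (norm_sum_le _ _).trans (Finset.sum_le_card_nsmul _ _ _ fun C' hC' => ?_))
  rw [norm_smul, Complex.norm_real, Real.norm_eq_abs, abs_mul]
  calc |w C| * |w C'| * ‖star (σ C s) * σ C' t‖ ≤ 1 * 1 * ε₀ :=
        mul_le_mul (mul_le_mul (hw C) (hw C') (abs_nonneg _) one_pos.le) (hcross C hC C' hC')
          (norm_nonneg _) (by norm_num)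
    _ = ε₀ := by ring

variable [TopologicalSpace.SeparableSpace B]

/-- Averaging over the cosets of the kernel of the action on central sequences. -/
theorem exists_average₂ (hA : SI.IsSimpleIdeal A) (hcp : SI.HasCPApprox A) (hP : Weak.PureInf A)
    (horth : ∀ e ∈ A, 0 ≤ e → ‖e‖ ≤ 1 → SI.Nondeg e → ∀ (N : ℕ), ∀ η > (0 : ℝ),
      ∃ z : Fin N → B, (∀ t, e * z t = z t ∧ ‖z t‖ = 1) ∧
        ∀ s t, s ≠ t → ‖star (z s) * z t‖ ≤ η)
    {G : Type*} [Group G] [DecidableEq G] (α : G → B ≃⋆ₐ[ℂ] B) (h1 : ∀ a, α 1 a = a)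
    (hmul : ∀ g h a, α (g * h) a = α g (α h a))
    (hG : ∀ (K : Finset G) (ε : ℝ), 0 < ε → ∃ F : Finset G, F.Nonempty ∧ ∀ g ∈ K,
      (((F.image (g * ·)) \ F).card : ℝ) ≤ ε * F.card)
    (hαA : ∀ g, ∀ a ∈ A, α g a ∈ A) (T : SI.Tower A α d)
    (X : Finset B) (hX : ∀ x ∈ X, x ∈ A) (K : Finset G) {ε : ℝ} (hε : 0 < ε) :
    ∃ s : Bool → B, ∀ i, ‖s i‖ ≤ 2 ∧ (∀ x ∈ X, ‖s i * x - x * s i‖ ≤ ε ∧
      ‖(star (s i) * s i - 1) * x‖ ≤ ε ∧ ∀ k ∈ K, ‖(α k (s i) - s i) * x‖ ≤ ε) ∧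
        ∀ i', i ≠ i' → ‖star (s i) * s i'‖ ≤ ε := by
  classical
  let N := SI.kernelSubgroup α h1 hmul hαA
  obtain ⟨M, hM, hMX⟩ : ∃ M : ℝ, 1 ≤ M ∧ ∀ x ∈ X, ‖x‖ ≤ M :=
    ⟨1 + ∑ x ∈ X, ‖x‖, le_add_of_nonneg_right (Finset.sum_nonneg fun _ _ => norm_nonneg _),
      fun x hx => by
        linarith [Finset.single_le_sum (f := fun x : B => ‖x‖) (fun _ _ => norm_nonneg _) hx]⟩
  set ε₁ : ℝ := min 1 ε / (8 * M) with hε₁
  have he1 : 0 < ε₁ := by positivity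
  obtain ⟨F, hF, hFK⟩ := hG K (ε₁ ^ 2) (by positivity)
  let R : Finset (G ⧸ N) := F.image fun f => (QuotientGroup.mk f : G ⧸ N)
  let U : Finset (G ⧸ N) := R ∪ K.biUnion fun k => R.image (k • ·)
  let σ : G ⧸ N → B ≃⋆ₐ[ℂ] B := fun C => α C.out
  let w : G ⧸ N → ℝ := SI.cosetWt N F
  have hwabs : ∀ C, |w C| ≤ 1 := SI.abs_cosetWt_le N F hF
  have hw2 : ∑ C ∈ U, w C ^ 2 = 1 := by
    rw [← SI.sum_share N F hF U fun f hf =>
      Finset.mem_union_left _ (Finset.mem_image_of_mem _ hf)]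
    exact Finset.sum_congr rfl fun C _ => Real.sq_sqrt (SI.share_nonneg N F C)
  let inv : G ⧸ N → B → B := fun C x => α C.out⁻¹ x
  have hinv : ∀ C x, σ C (inv C x) = x := fun C x => by
    show α _ (α _ x) = x
    rw [← hmul, mul_inv_cancel, h1]
  have hinvA : ∀ C x, x ∈ A → inv C x ∈ A := fun C x hx => hαA _ x hx
  let nn : G → G ⧸ N → G := fun k C => (k • C).out⁻¹ * (k * C.out)
  have hnn : ∀ k C, SI.TrivOn A (α (nn k C)) := fun k C => by
    refine (QuotientGroup.eq (s := N)).1 ?_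
    rw [QuotientGroup.out_eq', ← smul_eq_mul, ← MulAction.Quotient.smul_mk,
      QuotientGroup.out_eq']
  have hX' : ∀ q : G × (G ⧸ N) × B, q.2.2 ∈ X → ∃ (X' : Finset B), (∀ y ∈ X', y ∈ A) ∧
      ∃ δ > (0 : ℝ), ∀ z : B, ‖z‖ ≤ 1 → (∀ y ∈ X', ‖z * y - y * z‖ < δ) →
        ‖(α (nn q.1 q.2.1) z - z) * inv (q.1 • q.2.1) q.2.2‖ ≤ ε₁ / (U.card + 1) := by
    intro q hq
    obtain ⟨X', h1', δ, hδ, h2⟩ := hnn q.1 q.2.1 (inv (q.1 • q.2.1) q.2.2)
      (hinvA _ _ (hX _ hq)) (ε₁ / (U.card + 1)) (by positivity)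
    exact ⟨X', h1', δ, hδ, fun z hz hy => (h2 z hz hy).1⟩
  choose! X' hX'A δ hδ hX'T using hX'
  let Q : Finset (G × (G ⧸ N) × B) := K ×ˢ U ×ˢ X
  have hQ : ∀ q ∈ Q, q.2.2 ∈ X := fun q hq =>
    (Finset.mem_product.1 (Finset.mem_product.1 hq).2).2
  obtain ⟨δ₀, hδ₀, hδ₀le⟩ : ∃ δ₀ > (0 : ℝ), ∀ q ∈ Q, δ₀ ≤ δ q := by
    rcases Q.eq_empty_or_nonempty with h | h
    · exact ⟨1, one_pos, by simp [h]⟩
    · exact ⟨Q.inf' h δ, (Finset.lt_inf'_iff h).2 fun q hq => hδ q (hQ q hq),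
        fun q hq => Finset.inf'_le _ hq⟩
  let X₁ : Finset B := (Q.biUnion X') ∪ U.biUnion fun C => X.image (inv C)
  have hX₁ : ∀ x ∈ X₁, x ∈ A := by
    intro x hx
    rcases Finset.mem_union.1 hx with h | h <;> obtain ⟨q, hq, hxq⟩ := Finset.mem_biUnion.1 h
    · exact hX'A q (hQ q hq) x hxq
    · obtain ⟨y, hy, rfl⟩ := Finset.mem_image.1 hxq
      exact hinvA _ _ (hX y hy)
  let K₁ : Finset G := (U ×ˢ U).filter (fun p => p.1 ≠ p.2) |>.image fun p => p.1.out⁻¹ * p.2.out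
  have hK₁ : ∀ g ∈ K₁, ¬ SI.TrivOn A (α g) := by
    intro g hg htr
    obtain ⟨p, hp, rfl⟩ := Finset.mem_image.1 hg
    have : (QuotientGroup.mk p.1.out : G ⧸ N) = QuotientGroup.mk p.2.out :=
      QuotientGroup.eq.2 htr
    rw [QuotientGroup.out_eq', QuotientGroup.out_eq'] at this
    exact (Finset.mem_filter.1 hp).2 this
  obtain ⟨u, hu⟩ : ∃ u : ℝ, u = U.card := ⟨_, rfl⟩
  have hu0 : 0 ≤ u := hu ▸ U.card.cast_nonneg
  set ε₀ : ℝ := min δ₀ (ε₁ ^ 2) / (u + 1) ^ 2 with hε₀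
  have he0 : 0 < ε₀ := by positivity
  have hb : ∀ r, 0 ≤ r → r ≤ (u + 1) ^ 2 → r * ε₀ ≤ min δ₀ (ε₁ ^ 2) := fun r _ hr => by
    calc r * ε₀ ≤ (u + 1) ^ 2 * ε₀ := mul_le_mul_of_nonneg_right hr he0.le
      _ = _ := by rw [hε₀]; field_simp
  have he1' : ε₁ ≤ 1 / 8 := by
    rw [hε₁, div_le_iff₀ (by positivity)]
    linarith [min_le_left (1 : ℝ) ε]
  have hsq : ε₁ ^ 2 ≤ ε₁ := by nlinarith
  have hMε : 8 * (M * ε₁) ≤ ε := by
    have : 8 * (M * ε₁) = min 1 ε := by rw [hε₁]; field_simp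
    linarith [min_le_right (1 : ℝ) ε]
  have hε₁ε : ε₁ ≤ M * ε₁ := le_mul_of_one_le_left he1.le hM
  have hc1 := hb 1 zero_le_one (by nlinarith)
  have hcu := (hb u hu0 (by nlinarith)).trans (min_le_right _ _)
  have hcu2 := (hb (u * u + 1) (by positivity) (by nlinarith)).trans (min_le_right _ _)
  obtain ⟨s₀, hs⟩ := exists_two_isometries hA hcp hP horth T X₁ hX₁ K₁ hK₁ he0
  have hs2 : ∀ i, ‖s₀ i‖ ≤ 2 := fun i => by
    have h3 := (hs i).1
    rw [CStarRing.norm_star_mul_self] at h3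
    nlinarith [norm_nonneg (s₀ i)]
  have htr : ∀ i i' (C C' : G ⧸ N), ‖star (σ C (s₀ i)) * σ C' (s₀ i')‖ =
      ‖star (s₀ i) * α (C.out⁻¹ * C'.out) (s₀ i')‖ := fun i i' C C' => by
    rw [← StarAlgEquiv.norm_map (α C.out) (star (s₀ i) * α _ (s₀ i')), map_mul, map_star, ← hmul,
      ← mul_assoc, mul_inv_cancel, one_mul]
  have hcross : ∀ i i', ∀ C ∈ U, ∀ C' ∈ U, C ≠ C' ∨ i ≠ i' →
      ‖star (σ C (s₀ i)) * σ C' (s₀ i')‖ ≤ ε₀ := by
    intro i i' C hC C' hC' hne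
    rw [htr]
    by_cases h : C = C'
    · subst h
      rw [inv_mul_cancel, h1]
      exact ((hs i).2.2 i').1 (hne.resolve_left (not_not.2 rfl))
    · exact ((hs i).2.2 i').2 _ (Finset.mem_image.2
        ⟨(C, C'), Finset.mem_filter.2 ⟨Finset.mem_product.2 ⟨hC, hC'⟩, h⟩, rfl⟩)
  have hxX₁ : ∀ x ∈ X, ∀ C ∈ U, inv C x ∈ X₁ := fun x hx C hC =>
    Finset.mem_union_right _ (Finset.mem_biUnion.2 ⟨C, hC, Finset.mem_image_of_mem _ hx⟩)
  refine ⟨fun i => SI.comb σ U w (s₀ i), fun i => ⟨?_, fun x hx => ⟨?_, ?_, fun k hk => ?_⟩,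
    fun i' hi => ?_⟩⟩
  · have h := SI.norm_comb_sq_le hwabs he0.le
      (fun C hC C' hC' hne => hcross i i C hC C' hC' (Or.inl hne)) (hs i).1
    rw [hw2, ← hu] at h
    nlinarith [norm_nonneg (SI.comb σ U w (s₀ i))]
  · have h := SI.norm_comb_comm_le (w := w) hwabs (hinv · x) fun C hC =>
      ((hs i).2.1 _ (hxX₁ x hx C hC)).1
    rw [← hu] at h
    linarith
  · have h := SI.norm_comb_square_le hwabs he0.le hw2
      (fun C hC C' hC' hne => hcross i i C hC C' hC' (Or.inl hne)) (e := (1 : B)) (e' := (1 : B))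
      (hinv · x) (fun C hC => ((hs i).2.1 _ (hxX₁ x hx C hC)).2)
      (fun C _ => by rw [map_one, sub_self, norm_zero]; exact he0.le)
    rw [← hu] at h
    have h1' : (u * u + 1) * ε₀ * ‖x‖ ≤ ε₁ * M :=
      mul_le_mul (hcu2.trans hsq) (hMX x hx) (norm_nonneg _) he1.le
    linarith [hc1.trans (min_le_right _ _)]
  · have hsub : R ⊆ U ∧ R.image (k • ·) ⊆ U :=
      ⟨Finset.subset_union_left, (Finset.subset_biUnion_of_mem
        (fun k : G => R.image (k • ·)) hk).trans Finset.subset_union_right⟩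
    rw [SI.map_comb_sub N F α hmul U k hsub.1 hsub.2, add_mul]
    have h10 := SI.kernel_move N F α hmul U hwabs k (s₀ := s₀ i) (hinv · x)
      (η := ε₁ / (U.card + 1)) fun C hC => by
        have hq : (k, C, x) ∈ Q := Finset.mem_product.2 ⟨hk, Finset.mem_product.2 ⟨hC, hx⟩⟩
        refine hX'T (k, C, x) hx _ ?_ fun y hy => ?_
        · rw [norm_smul, norm_inv, Complex.norm_ofNat]; linarith [hs2 i]
        · have h11 :=
            ((hs i).2.1 y (Finset.mem_union_left _ (Finset.mem_biUnion.2 ⟨_, hq, hy⟩))).1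
          rw [smul_mul_assoc, mul_smul_comm, ← smul_sub, norm_smul, norm_inv, Complex.norm_ofNat]
          linarith [hδ₀le _ hq, hc1.trans (min_le_left _ _)]
    have h12 := SI.norm_comb_sq_le
      (w := fun C => SI.cosetWt N F (k⁻¹ • C) - SI.cosetWt N F C)
      (fun C => abs_sub_le_iff.2
        ⟨by linarith [(abs_le.1 (hwabs (k⁻¹ • C))).2, Real.sqrt_nonneg (SI.share N F C),
            show SI.cosetWt N F C = Real.sqrt (SI.share N F C) from rfl],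
          by linarith [(abs_le.1 (hwabs C)).2, Real.sqrt_nonneg (SI.share N F (k⁻¹ • C)),
            show SI.cosetWt N F (k⁻¹ • C) = Real.sqrt (SI.share N F (k⁻¹ • C)) from rfl]⟩)
      he0.le (fun C hC C' hC' hne => hcross i i C hC C' hC' (Or.inl hne)) (hs i).1
    have h13 : ∑ C ∈ U, (SI.cosetWt N F (k⁻¹ • C) - SI.cosetWt N F C) ^ 2 ≤ 2 * ε₁ ^ 2 :=
      SI.sum_sq_sqrt_share_le N F hF U k (hFK k hk)
    rw [← hu] at h12 h10
    have h14 : (U.card : ℝ) * (2 * (ε₁ / (U.card + 1))) ≤ 2 * ε₁ := by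
      rw [mul_div, mul_div, div_le_iff₀ (by positivity)]
      linarith
    rw [← hu] at h14
    have h15 : ‖SI.comb σ U (fun C => SI.cosetWt N F (k⁻¹ • C) - SI.cosetWt N F C) (s₀ i)‖ ≤
        3 * ε₁ := by
      nlinarith [norm_nonneg
        (SI.comb σ U (fun C => SI.cosetWt N F (k⁻¹ • C) - SI.cosetWt N F C) (s₀ i))]
    refine (norm_add_le _ _).trans ((add_le_add h10 ((norm_mul_le _ _).trans
      (mul_le_mul h15 (hMX x hx) (norm_nonneg _) (by linarith)))).trans ?_)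
    linarith
  · refine (norm_comb_cross_le hwabs fun C hC C' hC' => hcross i i' C hC C' hC' (Or.inr hi)).trans ?_
    rw [← hu, ← mul_assoc]
    have := (hb (u * u) (by positivity) (by nlinarith)).trans (min_le_right _ _)
    linarith

/-- Two invariant central sequences of almost isometries with almost orthogonal ranges. -/
theorem exists_invariant_isometries (hA : SI.IsSimpleIdeal A) (hcp : SI.HasCPApprox A)
    (hP : Weak.PureInf A)
    (horth : ∀ e ∈ A, 0 ≤ e → ‖e‖ ≤ 1 → SI.Nondeg e → ∀ (N : ℕ), ∀ η > (0 : ℝ),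
      ∃ z : Fin N → B, (∀ t, e * z t = z t ∧ ‖z t‖ = 1) ∧
        ∀ s t, s ≠ t → ‖star (z s) * z t‖ ≤ η)
    {G : Type*} [Group G] [DecidableEq G] [Countable G] (α : G → B ≃⋆ₐ[ℂ] B)
    (h1 : ∀ a, α 1 a = a) (hmul : ∀ g h a, α (g * h) a = α g (α h a))
    (hG : ∀ (K : Finset G) (ε : ℝ), 0 < ε → ∃ F : Finset G, F.Nonempty ∧ ∀ g ∈ K,
      (((F.image (g * ·)) \ F).card : ℝ) ≤ ε * F.card)
    (hαA : ∀ g, ∀ a ∈ A, α g a ∈ A) (T : SI.Tower A α d) :
    ∃ s : Bool → ℕ → B, ∀ i, (∀ n, ‖s i n‖ ≤ 2) ∧ SI.CentralTo A (s i) ∧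
      (∀ i', i ≠ i' → Tendsto (fun n => ‖star (s i n) * s i' n‖) atTop (𝓝 0)) ∧
      ∀ a ∈ A, Tendsto (fun n => ‖(star (s i n) * s i n - 1) * a‖) atTop (𝓝 0) ∧
        ∀ g, Tendsto (fun n => ‖(α g (s i n) - s i n) * a‖) atTop (𝓝 0) := by
  classical
  obtain ⟨C₀, hC₀A, hC₀c, hC₀d⟩ :=
    (TopologicalSpace.IsSeparable.of_separableSpace (A : Set B)).exists_countable_dense_subset
  obtain ⟨e, he⟩ := (hC₀c.insert (0 : B)).exists_eq_range (Set.insert_nonempty _ _)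
  obtain ⟨k, hk⟩ := exists_surjective_nat G
  have heA : ∀ l, e l ∈ A := fun l => by
    rcases Set.mem_insert_iff.1 (he ▸ Set.mem_range_self l) with h | h
    · rw [h]; exact zero_mem A
    · exact hC₀A h
  have main : ∀ m : ℕ, ∃ s : Bool → B, ∀ i, ‖s i‖ ≤ 2 ∧
      (∀ x ∈ (Finset.range (m + 1)).image e, ‖s i * x - x * s i‖ ≤ 1 / (m + 1) ∧
        ‖(star (s i) * s i - 1) * x‖ ≤ 1 / (m + 1) ∧
        ∀ l ∈ (Finset.range (m + 1)).image k, ‖(α l (s i) - s i) * x‖ ≤ 1 / (m + 1)) ∧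
      ∀ i', i ≠ i' → ‖star (s i) * s i'‖ ≤ 1 / (m + 1) := fun m =>
    exists_average₂ hA hcp hP horth α h1 hmul hG hαA T _
      (by simp [heA]) _ (by positivity)
  choose s hs using main
  refine ⟨fun i m => s m i, fun i => ?_⟩
  have hlim : Tendsto (fun m : ℕ => (1 : ℝ) / (m + 1)) atTop (𝓝 0) :=
    tendsto_one_div_add_atTop_nhds_zero_nat
  have ext : ∀ (L : ℕ → B → B) (R : ℝ), (∀ n a b, ‖L n a - L n b‖ ≤ R * ‖a - b‖) → 0 ≤ R →
      (∀ l, ∀ᶠ m : ℕ in atTop, ‖L m (e l)‖ ≤ 1 / ((m : ℝ) + 1)) →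
      ∀ a ∈ A, Tendsto (fun n => ‖L n a‖) atTop (𝓝 0) := by
    intro L R hL hR hl a ha
    refine Metric.tendsto_nhds.2 fun δ hδ => ?_
    obtain ⟨b, hb, hab⟩ := Metric.mem_closure_iff.1 (hC₀d ha) (δ / (2 * (R + 1))) (by positivity)
    obtain ⟨l, rfl⟩ : b ∈ Set.range e := he ▸ Set.mem_insert_of_mem _ hb
    filter_upwards [hl l, hlim.eventually_lt_const (half_pos hδ)] with n hn hn'
    rw [dist_zero_right, norm_norm]
    rw [dist_eq_norm] at hab
    have h1' : R * ‖a - e l‖ ≤ δ / 2 := by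
      calc R * ‖a - e l‖ ≤ (R + 1) * (δ / (2 * (R + 1))) :=
            mul_le_mul (by linarith) hab.le (norm_nonneg _) (by linarith)
        _ = δ / 2 := by field_simp
    linarith [hL n a (e l), norm_le_insert' (L n a) (L n (e l))]
  have lipR : ∀ (y : B) (R : ℝ), ‖y‖ ≤ R → ∀ a b : B, ‖y * a - y * b‖ ≤ R * ‖a - b‖ :=
    fun y R hy a b => by
      rw [← mul_sub]; exact (norm_mul_le _ _).trans (by gcongr)
  have hmem : ∀ (l m : ℕ), l ≤ m → l ∈ Finset.range (m + 1) := fun l m h =>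
    Finset.mem_range.2 (by omega)
  refine ⟨fun m => (hs m i).1, ?_, fun i' hi => ?_, fun a ha => ⟨?_, fun g => ?_⟩⟩
  · exact ext (fun n a => s n i * a - a * s n i) 4 (fun n a b => by
      calc _ = ‖s n i * (a - b) - (a - b) * s n i‖ := by rw [mul_sub, sub_mul]; congr 1; abel
        _ ≤ 2 * ‖a - b‖ + ‖a - b‖ * 2 := (norm_sub_le _ _).trans (add_le_add
            ((norm_mul_le _ _).trans (by gcongr; exact (hs n i).1))
            ((norm_mul_le _ _).trans (by gcongr; exact (hs n i).1)))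
        _ = _ := by ring) (by norm_num)
      fun l => (eventually_ge_atTop l).mono fun m hm => ((hs m i).2.1 _ (Finset.mem_image_of_mem e (hmem l m hm))).1
  · exact squeeze_zero (fun _ => norm_nonneg _) (fun m => (hs m i).2.2 i' hi) hlim
  · exact ext (fun n a => (star (s n i) * s n i - 1) * a) (4 + ‖(1 : B)‖)
      (fun n => lipR _ _ (by
        refine (norm_sub_le _ _).trans ?_
        rw [CStarRing.norm_star_mul_self]
        nlinarith [(hs n i).1, norm_nonneg (s n i)])) (by positivity)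
      (fun l => (eventually_ge_atTop l).mono fun m hm => ((hs m i).2.1 _ (Finset.mem_image_of_mem e (hmem l m hm))).2.1) a ha
  · obtain ⟨l', rfl⟩ := hk g
    exact ext (fun n a => (α (k l') (s n i) - s n i) * a) 4
      (fun n => lipR _ _ (by
        refine (norm_sub_le _ _).trans ?_
        rw [StarAlgEquiv.norm_map]; linarith [(hs n i).1])) (by norm_num)
      (fun l => ((eventually_ge_atTop l).and (eventually_ge_atTop l')).mono fun m hm =>
        ((hs m i).2.1 _ (Finset.mem_image_of_mem e (hmem l m hm.1))).2.2 _ (Finset.mem_image_of_mem k (hmem l' m hm.2))) a ha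

end Vale.Agent.P095.Inf
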