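import Vale.Agent.P095.Weak.Cover
import Vale.Agent.P095.SI.Core

/-! P095, algebras without traces: almost orthogonal families below every element. -/

open scoped ComplexOrder

namespace Vale.Agent.P095.Inf

open Vale.Agent.P101.Lit Vale.Agent.P095.Rel Vale.Agent.P095.Rel.Z

variable {B : Type*} [CStarAlgebra B] [PartialOrder B] [StarOrderedRing B] {A : Submodule ℂ B}
  [IsUnitisation A] {j : ∀ i, St B (pp i) (qq i) → B}

/-- Below every element there are `2 ^ m` almost orthogonal pieces which are not small. -/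
theorem exists_pieces (hA : SI.IsSimpleIdeal A) (Z : ZData A j) {e : B} (he : e ∈ A)
    (hne : SI.Nondeg e) (m : ℕ) : ∀ η > (0 : ℝ), ∃ z : (Fin m → Bool) → B,
      (∀ s, e * z s = z s ∧ z s ∈ A ∧ ‖z s‖ ≤ 1 ∧ (1 / 32 : ℝ) ^ m ≤ ‖z s‖ ^ 2) ∧
        ∀ s t, s ≠ t → ‖star (z s) * z t‖ ≤ η := by
  induction m with
  | zero =>
    intro η _
    obtain ⟨w, hw0, hw⟩ := hne
    have hn : ‖w‖ ≠ 0 := norm_ne_zero_iff.2 hw0
    have hfix : e * (((‖w‖⁻¹ : ℝ) : ℂ) • w) = ((‖w‖⁻¹ : ℝ) : ℂ) • w := by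
      rw [mul_smul_comm, hw]
    have h1 : ‖((‖w‖⁻¹ : ℝ) : ℂ) • w‖ = 1 := by
      rw [norm_smul, Complex.norm_real, Real.norm_of_nonneg (by positivity), inv_mul_cancel₀ hn]
    refine ⟨fun _ => ((‖w‖⁻¹ : ℝ) : ℂ) • w, fun _ => ⟨hfix, ?_, h1.le, by rw [h1, pow_zero, one_pow]⟩,
      fun s t h => absurd (Subsingleton.elim s t) h⟩
    rw [← hfix]
    exact (hA.2.1 _ e he).2
  | succ m ih =>
    intro η hη
    obtain ⟨z, hz, hzz⟩ := ih η hη
    set c : ℝ := (1 / 32) ^ m with hc
    have hc0 : 0 < c := by positivity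
    choose s₁ s₂ h₁ h₂ hn₁ hn₂ h22 h12 hlow using fun s =>
      Weak.exists_split hA Z (hz s).2.1 (hz s).2.2.1 (show 0 < min η (c / 64) by positivity)
    let u : (Fin m → Bool) → Bool → B := fun s b => if b then s₁ s else s₂ s
    have hu : ∀ s b, ‖u s b‖ ≤ 1 := fun s b => by
      cases b
      · simpa [u] using hn₂ s
      · simpa [u] using hn₁ s
    refine ⟨fun s => z (Fin.tail s) * u (Fin.tail s) (s 0), fun s => ⟨?_, ?_, ?_, ?_⟩,
      fun s t hst => ?_⟩
    · rw [← mul_assoc, (hz _).1]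
    · exact (hA.2.1 _ _ (hz _).2.1).2
    · exact (norm_mul_le _ _).trans (mul_le_one₀ (hz _).2.2.1 (norm_nonneg _) (hu _ _))
    · have hmin := min_le_right η (c / 64)
      have hl := hlow (Fin.tail s)
      have hcz := (hz (Fin.tail s)).2.2.2
      have e2 : star (z (Fin.tail s) * s₂ (Fin.tail s)) * (z (Fin.tail s) * s₂ (Fin.tail s)) =
          star (s₂ (Fin.tail s)) * (star (z (Fin.tail s)) * z (Fin.tail s)) * s₂ (Fin.tail s) := by
        rw [star_mul]; simp only [mul_assoc]
      have h2 : ‖z (Fin.tail s) * s₁ (Fin.tail s)‖ ^ 2 ≤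
          ‖z (Fin.tail s) * s₂ (Fin.tail s)‖ ^ 2 + min η (c / 64) := by
        rw [sq, sq, ← CStarRing.norm_star_mul_self, ← CStarRing.norm_star_mul_self, e2]
        linarith [norm_le_norm_add_norm_sub'
          (star (z (Fin.tail s) * s₁ (Fin.tail s)) * (z (Fin.tail s) * s₁ (Fin.tail s)))
          (star (s₂ (Fin.tail s)) * (star (z (Fin.tail s)) * z (Fin.tail s)) * s₂ (Fin.tail s)),
          h22 (Fin.tail s), norm_sub_rev
          (star (s₂ (Fin.tail s)) * (star (z (Fin.tail s)) * z (Fin.tail s)) * s₂ (Fin.tail s))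
          (star (z (Fin.tail s) * s₁ (Fin.tail s)) * (z (Fin.tail s) * s₁ (Fin.tail s)))]
      have e1 : (1 / 32 : ℝ) ^ (m + 1) = c / 32 := by rw [pow_succ, hc]; ring
      rw [e1]
      cases hs : s 0 <;> simp only [u, hs, Bool.false_eq_true, if_false, if_true] <;> linarith
    · have e1 : ∀ (x y p q : B), star (x * p) * (y * q) = star p * (star x * y) * q := by
        intro x y p q
        rw [star_mul]; simp only [mul_assoc]
      simp only [e1]
      by_cases ht : Fin.tail s = Fin.tail t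
      · have h0 : s 0 ≠ t 0 := fun h => hst (by
          rw [← Fin.cons_self_tail s, ← Fin.cons_self_tail t, h, ht])
        rw [← ht]
        have h3 := (h12 (Fin.tail s)).trans (min_le_left _ _)
        cases hs : s 0 <;> cases htt : t 0 <;>
          simp only [u, Bool.false_eq_true, if_false, if_true, hs, htt, ne_eq, not_true] at h0 ⊢
        · rw [← norm_star, star_mul, star_mul, star_mul, star_star, star_star]
          simpa only [mul_assoc] using h3
        · exact h3
      · exact (SI.norm_three_mul_le _ _ _ ((norm_star _).trans_le (hu _ _)) (hzz _ _ ht)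
          (hu _ _)).trans (by rw [one_mul, mul_one])

/-- Almost orthogonal normalised families below every element. -/
theorem exists_orth (hA : SI.IsSimpleIdeal A) (Z : ZData A j) :
    ∀ e ∈ A, 0 ≤ e → ‖e‖ ≤ 1 → SI.Nondeg e → ∀ (N : ℕ), ∀ η > (0 : ℝ),
      ∃ z : Fin N → B, (∀ t, e * z t = z t ∧ ‖z t‖ = 1) ∧
        ∀ s t, s ≠ t → ‖star (z s) * z t‖ ≤ η := by
  intro e he _ _ hne N η hη
  set c : ℝ := (1 / 32) ^ N with hc
  have hc0 : 0 < c := by positivity
  obtain ⟨z, hz, hzz⟩ := exists_pieces hA Z he hne N (η * c) (by positivity)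
  let ι : Fin N → Fin N → Bool := fun t i => decide (i = t)
  have hι : Function.Injective ι := fun s t h => by
    have := congrFun h s
    simpa [ι] using this
  have hn0 : ∀ t, 0 < ‖z t‖ := fun t => by
    rcases (norm_nonneg (z t)).eq_or_lt with h | h
    · have := (hz t).2.2.2
      rw [← h] at this
      norm_num at this
      linarith
    · exact h
  refine ⟨fun t => ((‖z (ι t)‖⁻¹ : ℝ) : ℂ) • z (ι t), fun t => ⟨?_, ?_⟩, fun s t hst => ?_⟩
  · rw [mul_smul_comm, (hz _).1]
  · rw [norm_smul, Complex.norm_real, Real.norm_of_nonneg (by positivity),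
      inv_mul_cancel₀ (hn0 _).ne']
  · rw [star_smul, smul_mul_assoc, mul_smul_comm, norm_smul, norm_smul, norm_star,
      Complex.norm_real, Complex.norm_real, Real.norm_of_nonneg (by positivity),
      Real.norm_of_nonneg (by positivity), ← mul_assoc, ← mul_inv,
      inv_mul_le_iff₀ (mul_pos (hn0 _) (hn0 _))]
    have hcs : c ≤ ‖z (ι s)‖ * ‖z (ι t)‖ := by
      refine le_of_pow_le_pow_left₀ two_ne_zero (by positivity) ?_
      rw [mul_pow, sq]
      exact mul_le_mul (hz _).2.2.2 (hz _).2.2.2 hc0.le (by positivity)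
    calc ‖star (z (ι s)) * z (ι t)‖ ≤ η * c := hzz _ _ fun h => hst (hι h)
      _ ≤ ‖z (ι s)‖ * ‖z (ι t)‖ * η := by
          rw [mul_comm η]; exact mul_le_mul_of_nonneg_right hcs hη.le

end Vale.Agent.P095.Inf
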