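import Vale.Agent.P095.Inf.Average
import Vale.Agent.P095.Inf.Orth
import Vale.Agent.P095.Weak.Ideal

/-! P095, algebras without traces: an invariant dimension drop pair from two invariant isometries. -/

open Filter Topology
open scoped ComplexOrder

namespace Vale.Agent.P095.Inf

variable {B : Type*} [CStarAlgebra B] {A : Submodule ℂ B}

/-- A bounded sequence commuting asymptotically with `A`. -/
def BC (A : Submodule ℂ B) (x : ℕ → B) : Prop :=
  (∃ R, 0 ≤ R ∧ ∀ n, ‖x n‖ ≤ R) ∧ SI.CentralTo A x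

/-- Equality against the elements of `A`, in the limit. -/
def EqOn' (A : Submodule ℂ B) (x y : ℕ → B) : Prop :=
  ∀ a ∈ A, Tendsto (fun n => ‖(x n - y n) * a‖) atTop (𝓝 0)

theorem BC.one : BC A fun _ => (1 : B) :=
  ⟨⟨‖(1 : B)‖, norm_nonneg _, fun _ => le_rfl⟩, fun a _ => by simp⟩

theorem BC.star (hs : ∀ a ∈ A, star a ∈ A) {x : ℕ → B} (hx : BC A x) :
    BC A fun n => Star.star (x n) := by
  obtain ⟨⟨R, hR, hxR⟩, hc⟩ := hx
  refine ⟨⟨R, hR, fun n => (norm_star _).trans_le (hxR n)⟩, fun a ha => ?_⟩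
  refine (hc _ (hs a ha)).congr fun n => ?_
  rw [← norm_star, star_sub, star_mul, star_mul, star_star, norm_sub_rev]

theorem BC.mul {x y : ℕ → B} (hx : BC A x) (hy : BC A y) : BC A fun n => x n * y n := by
  obtain ⟨⟨R, hR, hxR⟩, hcx⟩ := hx
  obtain ⟨⟨S, hS, hyS⟩, hcy⟩ := hy
  refine ⟨⟨R * S, mul_nonneg hR hS, fun n => (norm_mul_le _ _).trans
    (mul_le_mul (hxR n) (hyS n) (norm_nonneg _) hR)⟩, fun a ha => ?_⟩
  refine squeeze_zero (fun _ => norm_nonneg _) (fun n => ?_)
    (by simpa using ((hcy a ha).const_mul R).add ((hcx a ha).mul_const S))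
  rw [show x n * y n * a - a * (x n * y n) =
    x n * (y n * a - a * y n) + (x n * a - a * x n) * y n by noncomm_ring]
  exact (norm_add_le _ _).trans (add_le_add
    ((norm_mul_le _ _).trans (mul_le_mul_of_nonneg_right (hxR n) (norm_nonneg _)))
    ((norm_mul_le _ _).trans (mul_le_mul_of_nonneg_left (hyS n) (norm_nonneg _))))

theorem BC.sub {x y : ℕ → B} (hx : BC A x) (hy : BC A y) : BC A fun n => x n - y n := by
  obtain ⟨⟨R, hR, hxR⟩, hcx⟩ := hx
  obtain ⟨⟨S, hS, hyS⟩, hcy⟩ := hy
  refine ⟨⟨R + S, add_nonneg hR hS, fun n => (norm_sub_le _ _).trans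
    (add_le_add (hxR n) (hyS n))⟩, fun a ha => ?_⟩
  refine squeeze_zero (fun _ => norm_nonneg _) (fun n => ?_)
    (by simpa using (hcx a ha).add (hcy a ha))
  rw [show (x n - y n) * a - a * (x n - y n) =
    (x n * a - a * x n) - (y n * a - a * y n) by noncomm_ring]
  exact norm_sub_le _ _

theorem EqOn'.rfl' (x : ℕ → B) : EqOn' A x x := fun a _ => by simp

theorem EqOn'.of_norm {x y : ℕ → B} (h : Tendsto (fun n => ‖x n - y n‖) atTop (𝓝 0)) :
    EqOn' A x y := fun a _ =>
  squeeze_zero (fun _ => norm_nonneg _) (fun _ => norm_mul_le _ _)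
    (by simpa using h.mul_const ‖a‖)

theorem tendsto_le₂ {f g h : ℕ → ℝ} (hf : ∀ n, 0 ≤ f n) (hle : ∀ n, f n ≤ g n + h n)
    (hg : Tendsto g atTop (𝓝 0)) (hh : Tendsto h atTop (𝓝 0)) : Tendsto f atTop (𝓝 0) :=
  squeeze_zero hf hle (by simpa using hg.add hh)

theorem EqOn'.trans {x y z : ℕ → B} (h : EqOn' A x y) (h' : EqOn' A y z) : EqOn' A x z :=
  fun a ha => tendsto_le₂ (fun _ => norm_nonneg _) (fun n => by
    rw [show (x n - z n) * a = (x n - y n) * a + (y n - z n) * a by noncomm_ring]
    exact norm_add_le _ _) (h a ha) (h' a ha)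

theorem EqOn'.symm {x y : ℕ → B} (h : EqOn' A x y) : EqOn' A y x := fun a ha =>
  (h a ha).congr fun n => by rw [← norm_neg, ← neg_mul, neg_sub]

theorem EqOn'.sub {x x' y y' : ℕ → B} (h : EqOn' A x x') (h' : EqOn' A y y') :
    EqOn' A (fun n => x n - y n) fun n => x' n - y' n :=
  fun a ha => tendsto_le₂ (fun _ => norm_nonneg _) (fun n => by
    rw [show (x n - y n - (x' n - y' n)) * a = (x n - x' n) * a - (y n - y' n) * a by
      noncomm_ring]
    exact norm_sub_le _ _) (h a ha) (h' a ha)

theorem EqOn'.mul_left {x y z : ℕ → B} (h : EqOn' A x y) (hz : BC A z) :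
    EqOn' A (fun n => z n * x n) fun n => z n * y n := fun a ha => by
  obtain ⟨⟨R, -, hR⟩, -⟩ := hz
  refine squeeze_zero (fun _ => norm_nonneg _) (fun n => ?_)
    (by simpa using (h a ha).const_mul R)
  rw [← mul_sub, mul_assoc]
  exact (norm_mul_le _ _).trans (mul_le_mul_of_nonneg_right (hR n) (norm_nonneg _))

theorem EqOn'.mul_right {x y z : ℕ → B} (h : EqOn' A x y) (hx : BC A x) (hy : BC A y)
    (hz : BC A z) : EqOn' A (fun n => x n * z n) fun n => y n * z n := fun a ha => by
  obtain ⟨⟨R, -, hR⟩, hcz⟩ := hz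
  obtain ⟨⟨S, -, hS⟩, -⟩ := hx.sub hy
  refine squeeze_zero (fun _ => norm_nonneg _) (fun n => ?_)
    (by simpa using ((hcz a ha).const_mul S).add ((h a ha).mul_const R))
  rw [show (x n * z n - y n * z n) * a =
    (x n - y n) * (z n * a - a * z n) + (x n - y n) * a * z n by noncomm_ring]
  exact (norm_add_le _ _).trans (add_le_add
    ((norm_mul_le _ _).trans (mul_le_mul_of_nonneg_right (hS n) (norm_nonneg _)))
    ((norm_mul_le _ _).trans (mul_le_mul_of_nonneg_left (hR n) (norm_nonneg _))))

theorem EqOn'.mul {x x' y y' : ℕ → B} (h : EqOn' A x x') (h' : EqOn' A y y') (hx : BC A x)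
    (hx' : BC A x') (hy : BC A y) :
    EqOn' A (fun n => x n * y n) fun n => x' n * y' n :=
  (h.mul_right hx hx' hy).trans (h'.mul_left hx')

theorem EqOn'.star (hs : ∀ a ∈ A, star a ∈ A) {x y : ℕ → B} (h : EqOn' A x y) (hx : BC A x)
    (hy : BC A y) : EqOn' A (fun n => Star.star (x n)) fun n => Star.star (y n) := fun a ha => by
  refine tendsto_le₂ (fun _ => norm_nonneg _) (fun n => ?_) (h _ (hs a ha))
    ((hx.sub hy).2 _ (hs a ha))
  refine le_of_eq_of_le (_root_.norm_star ((Star.star (x n) - Star.star (y n)) * a)).symm ?_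
  rw [star_mul, star_sub, star_star, star_star]
  nth_rw 1 [show Star.star a * (x n - y n) = (x n - y n) * Star.star a -
    ((x n - y n) * Star.star a - Star.star a * (x n - y n)) by abel]
  exact norm_sub_le _ _

variable [PartialOrder B] [StarOrderedRing B]

theorem norm_one_sub_le_one {p : B} (h0 : 0 ≤ p) (h1 : ‖p‖ ≤ 1) : ‖1 - p‖ ≤ 1 := by
  have hp : p ≤ 1 := (CStarAlgebra.norm_le_one_iff_of_nonneg p h0).1 h1
  exact (CStarAlgebra.norm_le_one_iff_of_nonneg _ (sub_nonneg.2 hp)).2 (sub_le_self _ h0)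

/-- An almost isometry is close to a contraction. -/
theorem exists_contraction (hA : SI.IsSimpleIdeal A) {s : ℕ → B} (hs : BC A s)
    (h : EqOn' A (fun n => star (s n) * s n) fun _ => 1) :
    ∃ t : ℕ → B, (∀ n, ‖t n‖ ≤ 1) ∧ BC A t ∧ EqOn' A t s := by
  have hst : ∀ a ∈ A, star a ∈ A := fun a ha => hA.star_mem ha
  let f : ℝ → ℝ := fun t => 2 / (1 + max t 0)
  let g : ℝ → ℝ := fun t => -1 / (1 + max t 0)
  have hpos : ∀ t : ℝ, 0 < 1 + max t 0 := fun t => by linarith [le_max_right t 0]
  have hfc : Continuous f := continuous_const.div (by fun_prop) fun t => (hpos t).ne'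
  have hgc : Continuous g := continuous_const.div (by fun_prop) fun t => (hpos t).ne'
  have hT := (hs.star hst).mul hs
  obtain ⟨R, hR, hTR⟩ := hT.1
  have hρc : BC A fun n => cfc f (star (s n) * s n) := by
    refine ⟨⟨2, two_pos.le, fun n => norm_cfc_le two_pos.le fun t _ => ?_⟩,
      SI.CentralTo.cfc hfc hTR (fun n => IsSelfAdjoint.star_mul_self _) hT.2⟩
    simp only [f]
    rw [Real.norm_of_nonneg (div_nonneg two_pos.le (hpos t).le), div_le_iff₀ (hpos t)]
    linarith [le_max_right t 0]
  have hρ1 : EqOn' A (fun n => cfc f (star (s n) * s n)) fun _ => 1 := fun a ha => by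
    refine squeeze_zero (fun _ => norm_nonneg _) (fun n => ?_)
      (h a ha)
    have hsp : ∀ t ∈ spectrum ℝ (star (s n) * s n), 0 ≤ t := fun t ht =>
      spectrum_nonneg_of_nonneg (star_mul_self_nonneg _) ht
    have e : cfc f (star (s n) * s n) - 1 =
        cfc g (star (s n) * s n) * (star (s n) * s n - 1) := by
      rw [← cfc_one ℝ (star (s n) * s n), ← cfc_sub f _ _ hfc.continuousOn (by fun_prop)]
      nth_rw 3 [← cfc_id' ℝ (star (s n) * s n)]
      rw [← cfc_sub _ _ _ (by fun_prop) (by fun_prop),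
        ← cfc_mul g _ _ hgc.continuousOn (by fun_prop)]
      refine cfc_congr fun t ht => ?_
      simp only [f, g, Pi.one_apply, max_eq_left (hsp t ht)]
      field_simp [show 1 + t ≠ 0 by linarith [hsp t ht]]
      ring
    rw [e, mul_assoc]
    refine (norm_mul_le _ _).trans (mul_le_of_le_one_left (norm_nonneg _) ?_)
    refine norm_cfc_le zero_le_one fun t _ => ?_
    simp only [g]
    rw [Real.norm_eq_abs, abs_div, abs_neg, abs_one, abs_of_pos (hpos t), div_le_one (hpos t)]
    linarith [le_max_right t 0]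
  refine ⟨fun n => s n * cfc f (star (s n) * s n), fun n => ?_, hs.mul hρc,
    (hρ1.mul_left hs).trans (by simpa using EqOn'.rfl' (A := A) s)⟩
  refine (pow_le_pow_iff_left₀ (norm_nonneg _) zero_le_one two_ne_zero).1 ?_
  rw [one_pow, sq, ← CStarRing.norm_star_mul_self, star_mul,
    (cfc_predicate f (star (s n) * s n) : IsSelfAdjoint _).star_eq,
    show cfc f (star (s n) * s n) * star (s n) * (s n * cfc f (star (s n) * s n)) =
      cfc f (star (s n) * s n) * (star (s n) * s n) * cfc f (star (s n) * s n) by noncomm_ring]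
  nth_rw 2 [← cfc_id' ℝ (star (s n) * s n)]
  rw [← cfc_mul f _ _ hfc.continuousOn (by fun_prop),
    ← cfc_mul (fun t => f t * t) f _ (hfc.mul continuous_id').continuousOn hfc.continuousOn]
  refine norm_cfc_le zero_le_one fun t ht => ?_
  have h0 := spectrum_nonneg_of_nonneg (star_mul_self_nonneg _) ht
  simp only [f, max_eq_left h0]
  rw [Real.norm_of_nonneg (by positivity), div_mul_eq_mul_div, div_mul_div_comm,
    div_le_one (by positivity)]
  nlinarith [mul_self_nonneg (1 - t)]

variable [TopologicalSpace.SeparableSpace B]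

/-- Without traces there is still an invariant dimension drop pair. -/
theorem hasInvariantPair_of_pureInf [Rel.IsUnitisation A]
    {j : ∀ i, P101.Lit.St B (P101.Lit.pp i) (P101.Lit.qq i) → B} (Z : Rel.Z.ZData A j)
    (hA : SI.IsSimpleIdeal A) (hcp : SI.HasCPApprox A) (hP : Weak.PureInf A)
    {d : B} (hd : d ∈ A) (hd0 : 0 ≤ d) (hd1 : ‖d‖ ≤ 1) (hdn : SI.Nondeg d)
    {G : Type*} [Group G] [DecidableEq G] [Countable G] (α : G → B ≃⋆ₐ[ℂ] B)
    (hα : SI.IsFolnerAction α) (hαA : ∀ g, ∀ a ∈ A, α g a ∈ A) : SI.HasInvariantPair A α := by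
  obtain ⟨h1, hmul, hG⟩ := hα
  have hst : ∀ a ∈ A, star a ∈ A := fun a ha => hA.star_mem ha
  have hinv : ∀ g b, α g (α g⁻¹ b) = b := fun g b => by rw [← hmul, mul_inv_cancel, h1]
  have hα' : ∀ g, ∀ a ∈ A, α g a ∈ A ∧ (α g).symm a ∈ A := fun g a ha => by
    refine ⟨hαA g a ha, ?_⟩
    have : (α g).symm a = α g⁻¹ a := by
      rw [StarAlgEquiv.symm_apply_eq, hinv]
    rw [this]; exact hαA _ a ha
  obtain ⟨T⟩ := SI.exists_tower hA α hαA
    (fun g hg => SI.orthFor_of_not_trivOn hA (α g) (hα' g) hg) hd hd0 hd1 hdn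
  obtain ⟨u, hu⟩ := exists_invariant_isometries hA hcp hP (exists_orth hA Z) α h1 hmul hG hαA T
  have hubc : ∀ i, BC A (u i) := fun i => ⟨⟨2, two_pos.le, (hu i).1⟩, (hu i).2.1⟩
  choose v hv1 hv hvu using fun i =>
    exists_contraction hA (hubc i) (fun a ha => ((hu i).2.2.2 a ha).1)
  have hvs : ∀ i, BC A fun n => star (v i n) := fun i => (hv i).star hst
  have hus : ∀ i, BC A fun n => star (u i n) := fun i => (hubc i).star hst
  have hvus : ∀ i, EqOn' A (fun n => star (v i n)) fun n => star (u i n) := fun i =>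
    (hvu i).star hst (hv i) (hubc i)
  have hiso : ∀ i, EqOn' A (fun n => star (v i n) * v i n) fun _ => 1 := fun i =>
    ((hvus i).mul (hvu i) (hvs i) (hus i) (hv i)).trans fun a ha => ((hu i).2.2.2 a ha).1
  have hzero : EqOn' A (fun n => star (v false n) * v true n) fun _ => 0 :=
    ((hvus false).mul (hvu true) (hvs false) (hus false) (hv true)).trans
      (EqOn'.of_norm (by simpa using (hu false).2.2.1 true (by simp)))
  have hzero' : EqOn' A (fun n => star (v true n) * v false n) fun _ => 0 :=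
    ((hvus true).mul (hvu false) (hvs true) (hus true) (hv false)).trans
      (EqOn'.of_norm (by simpa using (hu true).2.2.1 false (by simp)))
  have hbcz : BC A fun _ => (0 : B) := ⟨⟨0, le_rfl, fun _ => norm_zero.le⟩, fun a _ => by simp⟩
  have hαbc : ∀ g {x : ℕ → B}, BC A x → BC A fun n => α g (x n) := by
    rintro g x ⟨⟨R, hR, hxR⟩, hc⟩
    refine ⟨⟨R, hR, fun n => (StarAlgEquiv.norm_map _ _).le.trans (hxR n)⟩, fun a ha => ?_⟩
    refine (hc _ (hαA g⁻¹ a ha)).congr fun n => ?_
    rw [← StarAlgEquiv.norm_map (α g) (x n * α g⁻¹ a - α g⁻¹ a * x n), map_sub, map_mul, map_mul,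
      hinv]
  have hvinv : ∀ g i, EqOn' A (fun n => α g (v i n)) (v i) := fun g i => by
    refine EqOn'.trans ?_ (EqOn'.trans (fun a ha => ((hu i).2.2.2 a ha).2 g) (hvu i).symm)
    intro a ha
    refine ((hvu i) _ (hαA g⁻¹ a ha)).congr fun n => ?_
    rw [← StarAlgEquiv.norm_map (α g) ((v i n - u i n) * α g⁻¹ a), map_mul, map_sub, hinv]
  -- the pair
  set s := v false with hs_def
  set t := v true with ht_def
  set c : ℕ → B := fun n => t n * star (s n) with hc_def
  set p : ℕ → B := fun n => s n * star (s n) with hp_def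
  set q : ℕ → B := fun n => t n * star (t n) with hq_def
  set S : ℕ → B := fun n => s n * ((1 - p n) * (1 - q n)) with hS_def
  have bs : BC A s := hv false
  have bt : BC A t := hv true
  have bs' : BC A fun n => star (s n) := hvs false
  have bt' : BC A fun n => star (t n) := hvs true
  have bp : BC A p := bs.mul bs'
  have bq : BC A q := bt.mul bt'
  have b1p : BC A fun n => 1 - p n := BC.one.sub bp
  have b1q : BC A fun n => 1 - q n := BC.one.sub bq
  have be : BC A fun n => (1 - p n) * (1 - q n) := b1p.mul b1q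
  have bc : BC A c := bt.mul bs'
  have bS : BC A S := bs.mul be
  have hisos : EqOn' A (fun n => star (s n) * s n) fun _ => 1 := hiso false
  have hisot : EqOn' A (fun n => star (t n) * t n) fun _ => 1 := hiso true
  have hcc : EqOn' A (fun n => star (c n) * c n) p := by
    refine EqOn'.trans (y := fun n => s n * ((star (t n) * t n) * star (s n))) ?_ ?_
    · refine fun a _ => ?_
      simp [c, star_mul, mul_assoc]
    · have h := (hisot.mul_right (bt'.mul bt) BC.one bs').mul_left bs
      simpa [p] using h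
  have hcc' : EqOn' A (fun n => c n * star (c n)) q := by
    refine EqOn'.trans (y := fun n => t n * ((star (s n) * s n) * star (t n))) ?_ ?_
    · refine fun a _ => ?_
      simp [c, star_mul, mul_assoc]
    · have h := (hisos.mul_right (bs'.mul bs) BC.one bt').mul_left bt
      simpa [q] using h
  have hpp : EqOn' A (fun n => p n * p n) p := by
    have h := (hisos.mul_right (bs'.mul bs) BC.one bs').mul_left bs
    refine EqOn'.trans (fun a _ => ?_) (by simpa [p] using h)
    simp [p, mul_assoc]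
  have hqq : EqOn' A (fun n => q n * q n) q := by
    have h := (hisot.mul_right (bt'.mul bt) BC.one bt').mul_left bt
    refine EqOn'.trans (fun a _ => ?_) (by simpa [q] using h)
    simp [q, mul_assoc]
  have hpq : EqOn' A (fun n => p n * q n) fun _ => 0 := by
    have h := (hzero.mul_right (bs'.mul bt) hbcz bt').mul_left bs
    refine EqOn'.trans (fun a _ => ?_) (by simpa using h)
    simp [p, q, mul_assoc, hs_def, ht_def]
  have hqp : EqOn' A (fun n => q n * p n) fun _ => 0 := by
    have h := (hzero'.mul_right (bt'.mul bs) hbcz bs').mul_left bt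
    refine EqOn'.trans (fun a _ => ?_) (by simpa using h)
    simp [p, q, mul_assoc, hs_def, ht_def]
  have he : EqOn' A (fun n => (1 - p n) * (1 - q n)) fun n => 1 - p n - q n := by
    intro a ha
    refine (hpq a ha).congr fun n => ?_
    congr 1
    noncomm_ring
  have he' : EqOn' A (fun n => (1 - q n) * (1 - p n)) fun n => 1 - p n - q n := by
    intro a ha
    refine (hqp a ha).congr fun n => ?_
    congr 1
    noncomm_ring
  have hee : EqOn' A (fun n => (1 - p n - q n) * (1 - p n - q n)) fun n => 1 - p n - q n := by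
    intro a ha
    refine squeeze_zero (fun _ => norm_nonneg _) (fun n => ?_)
      (by simpa using (((hpp a ha).add (hqq a ha)).add (hpq a ha)).add (hqp a ha))
    rw [show ((1 - p n - q n) * (1 - p n - q n) - (1 - p n - q n)) * a =
      (p n * p n - p n) * a + (q n * q n - q n) * a + (p n * q n - 0) * a +
        (q n * p n - 0) * a by noncomm_ring]
    simpa only [sub_zero] using norm_add₄_le
  have bP : BC A fun n => 1 - p n - q n := b1p.sub bq
  have hsq : ∀ n, ‖s n‖ ≤ 1 ∧ ‖t n‖ ≤ 1 := fun n => ⟨hv1 false n, hv1 true n⟩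
  have hpn : ∀ {x : B}, ‖x‖ ≤ 1 → ‖1 - x * star x‖ ≤ 1 := fun {x} hx =>
    norm_one_sub_le_one (mul_star_self_nonneg x)
      (by rw [CStarRing.norm_self_mul_star]; exact mul_le_one₀ hx (norm_nonneg _) hx)
  have hSS : EqOn' A (fun n => star (S n) * S n) fun n => 1 - p n - q n := by
    have h2 := (he'.mul (((hisos.mul_right (bs'.mul bs) BC.one be).trans
      (by simpa using EqOn'.rfl' (A := A) (fun n => (1 - p n) * (1 - q n)))).trans he)
      (b1q.mul b1p) bP ((bs'.mul bs).mul be)).trans hee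
    refine EqOn'.trans (fun a _ => ?_) h2
    simp [S, p, q, star_mul, mul_assoc, hs_def, ht_def]
  have hcS : EqOn' A (fun n => star (c n) * c n * S n) S := by
    refine (hcc.mul_right ((bc.star hst).mul bc) bp bS).trans ?_
    have h := (hisos.mul_right (bs'.mul bs) BC.one be).mul_left bs
    refine EqOn'.trans (fun a _ => ?_) (by simpa [S] using h)
    simp [S, p, mul_assoc, hs_def]
  have hc2 : EqOn' A (fun n => c n * c n) fun _ => 0 := by
    have h := (hzero.mul_right (bs'.mul bt) hbcz bs').mul_left bt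
    refine EqOn'.trans (fun a _ => ?_) (by simpa using h)
    simp [c, mul_assoc, hs_def, ht_def]
  refine ⟨c, S, fun n => ?_, fun n => ?_, bc.2, bS.2, fun a ha => ⟨?_, ?_, ?_, fun g => ⟨?_, ?_⟩⟩⟩
  · exact (norm_mul_le _ _).trans
      (mul_le_one₀ (hsq n).2 (norm_nonneg _) ((norm_star _).trans_le (hsq n).1))
  · refine le_trans ?_ one_le_two
    exact (norm_mul_le _ _).trans (mul_le_one₀ (hsq n).1 (norm_nonneg _)
      ((norm_mul_le _ _).trans (mul_le_one₀ (hpn (hsq n).1) (norm_nonneg _) (hpn (hsq n).2))))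
  · simpa using hc2 a ha
  · exact (hSS.trans (((EqOn'.rfl' _).sub hcc.symm).sub hcc'.symm)) a ha
  · exact hcS a ha
  · have h := (hvinv g true).mul ((hvinv g false).star hst (hαbc g bs) bs) (hαbc g bt) bt
      ((hαbc g bs).star hst)
    refine (h a ha).congr fun n => ?_
    simp [c, map_mul, map_star, hs_def, ht_def]
  · have hp : EqOn' A (fun n => α g (p n)) p := by
      have h := (hvinv g false).mul ((hvinv g false).star hst (hαbc g bs) bs) (hαbc g bs) bs
        ((hαbc g bs).star hst)
      refine EqOn'.trans (fun a _ => ?_) h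
      simp [p, map_mul, map_star, hs_def]
    have hq : EqOn' A (fun n => α g (q n)) q := by
      have h := (hvinv g true).mul ((hvinv g true).star hst (hαbc g bt) bt) (hαbc g bt) bt
        ((hαbc g bt).star hst)
      refine EqOn'.trans (fun a _ => ?_) h
      simp [q, map_mul, map_star, ht_def]
    have h := (hvinv g false).mul
      (((EqOn'.rfl' fun _ => (1 : B)).sub hp).mul ((EqOn'.rfl' fun _ => (1 : B)).sub hq)
        (BC.one.sub (hαbc g bp)) b1p (BC.one.sub (hαbc g bq)))
      (hαbc g bs) bs ((BC.one.sub (hαbc g bp)).mul (BC.one.sub (hαbc g bq)))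
    refine (h a ha).congr fun n => ?_
    simp [S, map_mul, map_sub, map_one, hs_def]

end Vale.Agent.P095.Inf
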