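import Vale.Agent.P095.Weak.Bound
import Vale.Agent.P095.SI.Core

/-! P095, algebras without traces: two almost orthogonal roots of a prescribed positive element. -/

open scoped ComplexOrder

namespace Vale.Agent.P095.Inf

variable {B : Type*} [CStarAlgebra B] [PartialOrder B] [StarOrderedRing B] {A : Submodule ℂ B}

/-- Two almost orthogonal elements below `e` with prescribed square. -/
theorem exists_two (hA : SI.IsSimpleIdeal A) (hP : Weak.PureInf A)
    (horth : ∀ e ∈ A, 0 ≤ e → ‖e‖ ≤ 1 → SI.Nondeg e → ∀ (N : ℕ), ∀ η > (0 : ℝ),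
      ∃ z : Fin N → B, (∀ t, e * z t = z t ∧ ‖z t‖ = 1) ∧
        ∀ s t, s ≠ t → ‖star (z s) * z t‖ ≤ η)
    {e : B} (he : e ∈ A) (he0 : 0 ≤ e) (he1 : ‖e‖ ≤ 1) (hne : SI.Nondeg e)
    {w : B} (hw : w ∈ A) (hw0 : 0 ≤ w) (hw1 : ‖w‖ ≤ 1) {η : ℝ} (hη : 0 < η) (hη1 : η ≤ 1) :
    ∃ z : Bool → B, (∀ i, e * z i = z i ∧ ‖z i‖ ≤ 2 ∧ ‖star (z i) * z i - w‖ ≤ η) ∧
      ∀ i i', i ≠ i' → ‖star (z i) * z i'‖ ≤ η := by
  obtain ⟨q, hq, hqq⟩ := horth e he he0 he1 hne 2 (η / 16) (by positivity)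
  have he4 : (0 : ℝ) < 1 / 4 := by norm_num
  have hqA : ∀ t, q t ∈ A := fun t => by
    rw [← (hq t).1]; exact (hA.2.1 _ e he).2
  have key : ∀ t, ∃ R : B, ‖R‖ ≤ 4 ∧ ‖star (q t * R) * (q t * R) - w‖ ≤ η := by
    intro t
    have hcA : Weak.cutq (1 / 4) (q t) ∈ A := (hA.2.1 _ _ (hqA t)).2
    have hc0 : Weak.cutq (1 / 4) (q t) ≠ 0 := by
      intro h0
      have h := Weak.norm_sub_cutq_le he4 (q t)
      rw [h0, sub_zero, (hq t).2, show Real.sqrt (1 / 4 : ℝ) = 1 / 2 by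
        rw [show (1 / 4 : ℝ) = (1 / 2) ^ 2 by norm_num, Real.sqrt_sq (by norm_num)]] at h
      norm_num at h
    obtain ⟨r₀, -, hr₀⟩ := hP w hw hw0 _ (hA.2.1 (star (Weak.cutq (1 / 4) (q t))) _ hcA).1
      (star_mul_self_nonneg _) (fun h => hc0 ((CStarRing.star_mul_self_eq_zero_iff _).1 h)) η hη
    obtain ⟨R, hR, hRn⟩ := Weak.exists_bounded_exact he4 (q := q t) (r₀ := r₀) (by
      linarith [norm_le_norm_add_norm_sub' (star r₀ * (star (Weak.cutq (1 / 4) (q t)) *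
        Weak.cutq (1 / 4) (q t)) * r₀) w])
    refine ⟨R, hRn.trans ?_, ?_⟩
    · rw [show Real.sqrt (1 / 4 : ℝ) = 1 / 2 by
        rw [show (1 / 4 : ℝ) = (1 / 2) ^ 2 by norm_num, Real.sqrt_sq (by norm_num)]]
      norm_num
    · rw [show star (q t * R) * (q t * R) = star R * (star (q t) * q t) * R by
        rw [star_mul]; simp only [mul_assoc], hR]
      exact hr₀.le
  choose R hR4 hRw using key
  let t : Bool → Fin 2 := fun i => if i then 0 else 1
  refine ⟨fun i => q (t i) * R (t i), fun i => ⟨?_, ?_, hRw _⟩, fun i i' h => ?_⟩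
  · rw [← mul_assoc, (hq _).1]
  · have h := norm_le_norm_add_norm_sub' (star (q (t i) * R (t i)) * (q (t i) * R (t i))) w
    rw [CStarRing.norm_star_mul_self] at h
    nlinarith [hRw (t i), norm_nonneg (q (t i) * R (t i))]
  · have htne : t i ≠ t i' := by
      cases i <;> cases i' <;> simp_all [t]
    rw [show star (q (t i) * R (t i)) * (q (t i') * R (t i')) =
      star (R (t i)) * (star (q (t i)) * q (t i')) * R (t i') by
        rw [star_mul]; simp only [mul_assoc]]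
    exact (SI.norm_three_mul_le _ _ _ ((norm_star _).trans_le (hR4 _)) (hqq _ _ htne)
      (hR4 _)).trans (by linarith)

end Vale.Agent.P095.Inf
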