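import Vale.Agent.P095.Inf.Roots
import Vale.Agent.P095.SI.Core

/-! P095, algebras without traces: two almost isometries with almost orthogonal ranges, separated
by the automorphisms which move central sequences. -/

open Filter Topology
open scoped ComplexOrder

namespace Vale.Agent.P095.Inf

variable {B : Type*} [CStarAlgebra B] [PartialOrder B] [StarOrderedRing B] {A : Submodule ℂ B}
  {d : B}

omit [PartialOrder B] [StarOrderedRing B] in
/-- A separated translate of one sum is almost orthogonal to another sum. -/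
theorem norm_cross₂_le {L : ℕ} (a c : Fin L → B) (σ : B ≃⋆ₐ[ℂ] B) {z z' : B} {M β : ℝ}
    (hc : ∀ l, ‖c l‖ ≤ M) (h : ∀ l l', ‖star z * (star (a l) * σ (a l')) * σ z'‖ ≤ β) :
    ‖star (∑ l, a l * z * c l) * σ (∑ l, a l * z' * c l)‖ ≤ L * (L * (M * β * M)) := by
  have hexp : star (∑ l, a l * z * c l) * σ (∑ l, a l * z' * c l) = ∑ l, ∑ l',
      star (c l) * (star z * (star (a l) * σ (a l')) * σ z') * σ (c l') := by
    simp only [star_sum, star_mul, map_sum, map_mul, Finset.sum_mul, Finset.mul_sum]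
    refine Finset.sum_comm.trans
      (Finset.sum_congr rfl fun l _ => Finset.sum_congr rfl fun m _ => ?_)
    simp only [mul_assoc]
  rw [hexp]
  refine (SI.norm_sum_sum_le _ fun l l' => SI.norm_three_mul_le _ _ _
    ((norm_star _).le.trans (hc l)) (h l l')
    ((StarAlgEquiv.norm_map _ _).le.trans (hc l'))).trans ?_
  simp

/-- The two almost isometries. -/
theorem exists_two_isometries (hA : SI.IsSimpleIdeal A) (hcp : SI.HasCPApprox A)
    (hP : Weak.PureInf A)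
    (horth : ∀ e ∈ A, 0 ≤ e → ‖e‖ ≤ 1 → SI.Nondeg e → ∀ (N : ℕ), ∀ η > (0 : ℝ),
      ∃ z : Fin N → B, (∀ t, e * z t = z t ∧ ‖z t‖ = 1) ∧
        ∀ s t, s ≠ t → ‖star (z s) * z t‖ ≤ η)
    {G : Type*} {α : G → B ≃⋆ₐ[ℂ] B} (T : SI.Tower A α d) (X : Finset B) (hX : ∀ x ∈ X, x ∈ A)
    (K : Finset G) (hK : ∀ g ∈ K, ¬ SI.TrivOn A (α g)) {ε : ℝ} (hε : 0 < ε) :
    ∃ s : Bool → B, ∀ i, ‖star (s i) * s i‖ ≤ 3 ∧
      (∀ x ∈ X, ‖s i * x - x * s i‖ ≤ ε ∧ ‖(star (s i) * s i - 1) * x‖ ≤ ε) ∧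
      ∀ i', (i ≠ i' → ‖star (s i) * s i'‖ ≤ ε) ∧ ∀ g ∈ K, ‖star (s i) * α g (s i')‖ ≤ ε := by
  classical
  obtain ⟨Mx, hMx, hMxX⟩ : ∃ M : ℝ, 1 ≤ M ∧ ∀ x ∈ X, ‖x‖ ≤ M :=
    ⟨1 + ∑ x ∈ X, ‖x‖, le_add_of_nonneg_right (Finset.sum_nonneg fun _ _ => norm_nonneg _),
      fun x hx => by
        linarith [Finset.single_le_sum (f := fun x : B => ‖x‖) (fun _ _ => norm_nonneg _) hx]⟩
  let X' : Finset B := X ∪ X.image star ∪ X.image fun x => star x * x
  have hX' : ∀ x ∈ X', x ∈ A := by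
    intro x hx
    simp only [X', Finset.mem_union, Finset.mem_image] at hx
    rcases hx with (h | ⟨y, hy, rfl⟩) | ⟨y, hy, rfl⟩
    · exact hX x h
    · exact hA.star_mem (hX y hy)
    · exact (hA.2.1 _ _ (hX y hy)).1
  obtain ⟨ε', he', he1, he2, he3⟩ : ∃ ε' : ℝ, 0 < ε' ∧ ε' ≤ 1 / 64 ∧
      64 * (Mx * Mx) * ε' ≤ ε ∧ 64 * (Mx * Mx) * ε' ≤ ε ^ 2 := by
    have hM : 1 ≤ Mx * Mx := one_le_mul_of_one_le_of_one_le hMx hMx
    refine ⟨min 1 (min ε (ε ^ 2)) / (64 * (Mx * Mx)), by positivity, ?_, ?_, ?_⟩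
    · rw [div_le_iff₀ (by positivity)]
      linarith [min_le_left (1 : ℝ) (min ε (ε ^ 2))]
    · rw [mul_div_cancel₀ _ (by positivity)]
      exact (min_le_right _ _).trans (min_le_left _ _)
    · rw [mul_div_cancel₀ _ (by positivity)]
      exact (min_le_right _ _).trans (min_le_right _ _)
  obtain ⟨L, a, c, hac, hdec, hdec1⟩ := SI.exists_decomp hA T horth hcp X' hX' he'
  obtain ⟨M, hM, hMa, hMc, hMy, hMX'⟩ : ∃ M : ℝ, 1 ≤ M ∧ (∀ l, ‖a l‖ ≤ M) ∧ (∀ l, ‖c l‖ ≤ M) ∧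
      ‖(1 : B)‖ ≤ M ∧ ∀ x ∈ X', ‖x‖ ≤ M := by
    refine ⟨1 + ‖(1 : B)‖ + ∑ l, (‖a l‖ + ‖c l‖) + ∑ x ∈ X', ‖x‖, ?_, fun l => ?_, fun l => ?_,
      ?_, fun x hx => ?_⟩
    all_goals
      have p1 : 0 ≤ ∑ x ∈ X', ‖x‖ := Finset.sum_nonneg fun _ _ => norm_nonneg _
      have p2 : 0 ≤ ∑ l, (‖a l‖ + ‖c l‖) :=
        Finset.sum_nonneg fun _ _ => add_nonneg (norm_nonneg _) (norm_nonneg _)
      have p3 := norm_nonneg (1 : B)
    · linarith
    · have := Finset.single_le_sum (f := fun l => ‖a l‖ + ‖c l‖)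
        (fun l _ => add_nonneg (norm_nonneg _) (norm_nonneg _)) (Finset.mem_univ l)
      linarith [norm_nonneg (c l)]
    · have := Finset.single_le_sum (f := fun l => ‖a l‖ + ‖c l‖)
        (fun l _ => add_nonneg (norm_nonneg _) (norm_nonneg _)) (Finset.mem_univ l)
      linarith [norm_nonneg (a l)]
    · linarith
    · linarith [Finset.single_le_sum (f := fun x : B => ‖x‖) (fun _ _ => norm_nonneg _) hx]
  obtain ⟨Q, hQdef⟩ : ∃ Q : ℝ, Q = 16 * ((L : ℝ) + 1) ^ 2 * M ^ 5 := ⟨_, rfl⟩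
  have hM5 : 1 ≤ M ^ 5 := one_le_pow₀ hM
  have hL1 : 1 ≤ ((L : ℝ) + 1) ^ 2 := one_le_pow₀ (le_add_of_nonneg_left L.cast_nonneg)
  have hQ1 : 1 ≤ Q := by
    have := one_le_mul_of_one_le_of_one_le hL1 hM5
    rw [hQdef, mul_assoc]; linarith
  set η : ℝ := ε' / Q with hη
  have hη0 : 0 < η := by positivity
  have hηε : η ≤ ε' := div_le_self he'.le hQ1
  have hη1 : η ≤ 1 := by linarith
  have hQη : Q * η = ε' := by rw [hη]; field_simp
  have hsmall : ∀ b : ℝ, b ≤ 16 * M ^ 5 → (L : ℝ) * (L * (b * η)) ≤ ε' := by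
    intro b hb
    rw [← hQη, hQdef]
    have h1 : b * η ≤ 16 * M ^ 5 * η := mul_le_mul_of_nonneg_right hb hη0.le
    have h2 : (L : ℝ) * (L * (b * η)) ≤ L * (L * (16 * M ^ 5 * η)) :=
      mul_le_mul_of_nonneg_left (mul_le_mul_of_nonneg_left h1 L.cast_nonneg) L.cast_nonneg
    have h3 : (L : ℝ) * L ≤ ((L : ℝ) + 1) ^ 2 := by nlinarith [L.cast_nonneg (α := ℝ)]
    have h4 := mul_le_mul_of_nonneg_right h3 (show 0 ≤ 16 * M ^ 5 * η by positivity)
    linarith
  obtain ⟨u, huA, hu0, hu1, hu⟩ := SI.exists_unit_approx hA (Finset.univ.image c)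
    (by intro x hx; obtain ⟨l, -, rfl⟩ := Finset.mem_image.1 hx; exact (hac l).2) hη0
  let Y : Finset B := (insert 1 X').biUnion fun y =>
    Finset.univ.image fun p : Fin L × Fin L => star (a p.1) * y * a p.2
  let Y₂ : Finset B := K.biUnion fun g =>
    Finset.univ.image fun p : Fin L × Fin L => star (a p.1) * α g (a p.2)
  obtain ⟨k₁, hk₁⟩ := T.excise₂ Y hη0
  obtain ⟨k₂, hk₂⟩ := T.orth₂ K hK Y₂ hη0
  obtain ⟨k, hkk₁, hkk₂⟩ : ∃ k, k₁ ≤ k ∧ k₂ ≤ k := ⟨max k₁ k₂, le_max_left _ _, le_max_right _ _⟩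
  obtain ⟨z, hz, hzz⟩ := exists_two hA hP horth (T.mem k) (T.nonneg k) (T.norm_le k) (T.nondeg k)
    huA hu0 hu1 hη0 hη1
  let s : Bool → B := fun i => ∑ l, a l * z i * c l
  have hzb : ∀ i i', η * ‖z i‖ * ‖z i'‖ ≤ 4 * η := fun i i' => by
    calc η * ‖z i‖ * ‖z i'‖ ≤ η * 2 * 2 := by
          gcongr
          · exact (hz i).2.1
          · exact (hz i').2.1
      _ = _ := by ring
  have hconj : ∀ i, ∀ y ∈ insert 1 X', ‖star (s i) * y * s i - SI.decMap T.φ a c y‖ ≤ ε' := by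
    intro i y hy
    have hyM : ‖y‖ ≤ M := by
      rcases Finset.mem_insert.1 hy with rfl | h
      · exact hMy
      · exact hMX' y h
    have hex : ∀ l l', ‖star (z i) * (star (a l) * y * a l') * z i -
        T.φ (star (a l) * y * a l') • (star (z i) * z i)‖ ≤ η * ‖z i‖ * ‖z i‖ := fun l l' =>
      hk₁ k hkk₁ _ (Finset.mem_biUnion.2
        ⟨y, hy, Finset.mem_image.2 ⟨(l, l'), Finset.mem_univ _, rfl⟩⟩) _ _ (hz i).1 (hz i).1
    have h := SI.norm_conj_sub_le T.φ a c T.φ_le hM hMa hMc hyM (hz i).2.1 hη0.le hex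
      (g := (1 : B)) (e := (1 : B)) (v := u) (θ := 0) (one_mul 1)
      (by
        rcases subsingleton_or_nontrivial B with hB | hB
        · simp [Subsingleton.elim (1 : B) 0]
        · exact norm_one.le)
      hu1 (by rw [one_mul, mul_one]; linarith [(hz i).2.2]) (fun l => by simp)
      (fun l => ((hu _ (Finset.mem_image_of_mem c (Finset.mem_univ l))).1).le) (by simp)
    rw [one_mul] at h
    refine h.trans ?_
    have := hsmall (7 * M ^ 5) (by linarith)
    simpa using this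
  have hconj' : ∀ i, ∀ y ∈ X', ‖star (s i) * y * s i - y‖ ≤ 2 * ε' := fun i y hy => by
    linarith [norm_sub_le_norm_sub_add_norm_sub (star (s i) * y * s i) (SI.decMap T.φ a c y) y,
      hconj i y (Finset.mem_insert_of_mem hy), (hdec y hy).1]
  have h1s : ∀ i, ‖star (s i) * s i - SI.decMap T.φ a c 1‖ ≤ ε' := fun i => by
    simpa using hconj i 1 (Finset.mem_insert_self _ _)
  have hMM : Mx * ε' ≤ Mx * Mx * ε' :=
    mul_le_mul_of_nonneg_right (le_mul_of_one_le_left (by linarith) hMx) he'.le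
  have hsq : ∀ i, ∀ x ∈ X, ‖(star (s i) * s i - 1) * x‖ ≤ 2 * (Mx * ε') := by
    intro i x hx
    have e1 : (star (s i) * s i - 1) * x = (star (s i) * s i - SI.decMap T.φ a c 1) * x +
        (SI.decMap T.φ a c 1 * x - x) := by noncomm_ring
    rw [e1]
    have hx' : x ∈ X' := Finset.mem_union_left _ (Finset.mem_union_left _ hx)
    refine (norm_add_le _ _).trans ((add_le_add ((norm_mul_le _ _).trans
      (mul_le_mul (h1s i) (hMxX x hx) (norm_nonneg _) he'.le)) (hdec x hx').2).trans ?_)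
    linarith [le_mul_of_one_le_left he'.le hMx]
  refine ⟨s, fun i => ⟨?_, fun x hx => ⟨?_, ?_⟩, fun i' => ⟨fun hii => ?_, fun g hg => ?_⟩⟩⟩
  · linarith [norm_le_norm_add_norm_sub' (star (s i) * s i) (SI.decMap T.φ a c 1), h1s i]
  · have hx' : x ∈ X' := Finset.mem_union_left _ (Finset.mem_union_left _ hx)
    have hsx : star x ∈ X' :=
      Finset.mem_union_left _ (Finset.mem_union_right _ (Finset.mem_image_of_mem _ hx))
    have hxx : star x * x ∈ X' := Finset.mem_union_right _ (Finset.mem_image_of_mem _ hx)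
    set ζ := 2 * (Mx * ε')
    have hζ : 2 * ε' ≤ ζ := by
      have := le_mul_of_one_le_left he'.le hMx
      simp only [ζ]; linarith
    have hζ0 : 0 ≤ ζ := by positivity
    have hsq' := SI.norm_comm_sq_le (e := (1 : B)) (ζ := ζ) (s := s i) (hMxX x hx)
      (IsSelfAdjoint.one B) (by simpa using (hconj' i _ hxx).trans hζ) ?_ ?_ (by simpa using hζ0)
      (by simpa using hζ0)
    · have h64 : (4 + 2 * Mx) * ζ ≤ ε ^ 2 := by
        have : (4 + 2 * Mx) * ζ ≤ 12 * (Mx * Mx * ε') := by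
          simp only [ζ]; nlinarith
        linarith [mul_nonneg (mul_self_nonneg Mx) he'.le]
      exact le_of_pow_le_pow_left₀ two_ne_zero hε.le (hsq'.trans h64)
    · rw [one_mul, ← sub_mul]
      refine (norm_mul_le _ _).trans ?_
      have := mul_le_mul (hconj' i _ hsx) (hMxX x hx) (norm_nonneg _) (by positivity)
      simp only [ζ]; linarith
    · rw [← sub_mul]; exact hsq i x hx
  · exact (hsq i x hx).trans (by linarith [mul_nonneg (mul_self_nonneg Mx) he'.le])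
  · have h := norm_cross₂_le a c (StarAlgEquiv.refl ℂ B) (z := z i) (z' := z i')
      (β := 5 * M ^ 3 * η) hMc fun l l' => by
        have hy := hk₁ k hkk₁ _ (Finset.mem_biUnion.2 ⟨1, Finset.mem_insert_self _ _,
          Finset.mem_image.2 ⟨(l, l'), Finset.mem_univ _, rfl⟩⟩) _ _ (hz i).1 (hz i').1
        simp only [mul_one] at hy
        show ‖star (z i) * (star (a l) * a l') * z i'‖ ≤ _
        have hφ : ‖T.φ (star (a l) * a l')‖ ≤ M ^ 3 := (T.φ_le _).trans
          (((norm_mul_le _ _).trans (mul_le_mul ((norm_star _).le.trans (hMa l)) (hMa l')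
            (norm_nonneg _) (by linarith))).trans (by nlinarith))
        have h3 : 1 ≤ M ^ 3 := one_le_pow₀ hM
        calc ‖star (z i) * (star (a l) * a l') * z i'‖
            ≤ ‖T.φ (star (a l) * a l') • (star (z i) * z i')‖ + η * ‖z i‖ * ‖z i'‖ :=
              (norm_le_norm_add_norm_sub' _ _).trans (add_le_add le_rfl hy)
          _ ≤ M ^ 3 * η + 4 * η := add_le_add ((norm_smul_le _ _).trans
              (mul_le_mul hφ (hzz i i' hii) (norm_nonneg _) (by positivity))) (hzb i i')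
          _ ≤ _ := by nlinarith
    refine (h.trans ?_).trans (show ε' ≤ ε by nlinarith)
    rw [show M * (5 * M ^ 3 * η) * M = 5 * M ^ 5 * η by ring]
    exact hsmall _ (by linarith)
  · have h := norm_cross₂_le a c (α g) (z := z i) (z' := z i') (β := 4 * η) hMc fun l l' =>
      (hk₂ k hkk₂ g hg _ (Finset.mem_biUnion.2
        ⟨g, hg, Finset.mem_image.2 ⟨(l, l'), Finset.mem_univ _, rfl⟩⟩) _ _ (hz i).1
          (hz i').1).trans (hzb i i')
    refine (h.trans ?_).trans (show ε' ≤ ε by nlinarith)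
    rw [show M * (4 * η) * M = 4 * M ^ 2 * η by ring]
    exact hsmall _ (by nlinarith [pow_le_pow_right₀ hM (show 2 ≤ 5 by norm_num)])

end Vale.Agent.P095.Inf
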